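import Vale.Agent.P260Z.Ob.Reg.Defs

/-!
# P260, obstruction: the refined map on one coarse square
-/

noncomputable section
set_option linter.unusedSectionVars false
variable [Vale.Agent.P215Z.K.Geom]
namespace Vale.Agent.P215Z.K.Geo
open Classical

theorem ev2 (a : ℤ) : Even (2 * a) := even_two_mul a

theorem od2 (a : ℤ) : ¬ Even (2 * a + 1) := by
  rw [Int.even_iff]
  omega

theorem dv2 (a : ℤ) : 2 * a / 2 = a := by omega

theorem dv3 (a : ℤ) : (2 * a + 1) / 2 = a := by omega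

theorem ref_ee (F : Gp → Pt) (a b : ℤ) : ref F (2 * a, 2 * b) = cell (F (a, b)) := by
  simp only [ref, ev2, dv2, and_self, if_true]

theorem ref_oe (F : Gp → Pt) (a b : ℤ) : ref F (2 * a + 1, 2 * b) = F (a, b) + F (a + 1, b) + 1 := by
  simp only [ref, ev2, od2, dv2, dv3, false_and, if_true, if_false]

theorem ref_eo (F : Gp → Pt) (a b : ℤ) : ref F (2 * a, 2 * b + 1) = F (a, b) + F (a, b + 1) + 1 := by
  simp only [ref, ev2, od2, dv2, dv3, and_false, if_true, if_false]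

theorem ref_oo (F : Gp → Pt) (a b : ℤ) : ref F (2 * a + 1, 2 * b + 1) =
    if F (a, b) = F (a + 1, b + 1) then F (a + 1, b) + F (a, b + 1) + 1
    else F (a, b) + F (a + 1, b + 1) + 1 := by
  simp only [ref, od2, dv3, and_self, if_false]

theorem cell_eq (q : Pt) : cell q = q + q + 1 := funext fun j => by
  simp only [cell, Pi.add_apply, Pi.one_apply]
  ring

theorem step_neg {a : Pt} (h : IsStep a) : IsStep (-a) := by
  rcases h with rfl | ⟨k, rfl | rfl⟩
  · exact .inl neg_zero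
  · exact .inr ⟨k, .inr rfl⟩
  · exact .inr ⟨k, .inl (neg_neg _)⟩

theorem step_zero : IsStep 0 := .inl rfl

theorem step_le {a : Pt} (h : IsStep a) (j : Fin 4) : -1 ≤ a j ∧ a j ≤ 1 := by
  rcases h with rfl | ⟨k, rfl | rfl⟩ <;> simp only [ee, Pi.zero_apply, Pi.neg_apply, Pi.single_apply]
  · omega
  all_goals split_ifs <;> omega

theorem step_ex {a : Pt} (h : IsStep a) (h0 : a ≠ 0) : ∃ k, ∃ s : ℤ, (s = 1 ∨ s = -1) ∧ a = s • ee k := by
  rcases h with rfl | ⟨k, rfl | rfl⟩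
  · exact absurd rfl h0
  · exact ⟨k, 1, .inl rfl, (one_smul _ _).symm⟩
  · exact ⟨k, -1, .inr rfl, (neg_one_smul _ _).symm⟩

/-- the shape of the square `Q` -/
def Sh (F : Gp → Pt) (Q : Gp) : Prop := Shape (F Q) (F (Q + (1, 0))) (F (Q + (0, 1))) (F (Q + (1, 1)))

/-- nondegenerate squares -/
def ND (F : Gp → Pt) (Q : Gp) : Prop :=
  F (Q + (1, 0)) ≠ F Q ∧ F (Q + (0, 1)) ≠ F Q ∧
    F (Q + (1, 1)) - F (Q + (0, 1)) = F (Q + (1, 0)) - F Q ∧
    ∀ k, F (Q + (1, 0)) k = F Q k ∨ F (Q + (0, 1)) k = F Q k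

/-- the local structure at a corner `q` with neighbours `u`, `w` and centre `c` -/
def Loc (N : Prop) (q u w c : Pt) : Prop :=
  IsStep (u - q) ∧ IsStep (w - q) ∧
    (((∀ k, u k = q k ∨ w k = q k) ∧ c = u + w + 1 ∧ (u ≠ q → w ≠ q → N)) ∨
      (u = w ∧ (c = q + u + 1 ∨ (u = q ∧ IsStep (c - cell q)))))

theorem Loc.symm {N : Prop} {q u w c : Pt} (h : Loc N q u w c) : Loc N q w u c := by
  obtain ⟨h1, h2, h3⟩ := h
  refine ⟨h2, h1, h3.imp (fun h => ⟨fun k => (h.1 k).symm, by rw [h.2.1, add_comm u],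
    fun a b => h.2.2 b a⟩) fun h => ⟨h.1.symm, ?_⟩⟩
  rw [← h.1]
  exact h.2

theorem loc_f0 {N : Prop} {x y : Pt} (h : IsStep (x - y)) : Loc N x y y (x + y + 1) :=
  ⟨neg_sub x y ▸ step_neg h, neg_sub x y ▸ step_neg h, .inr ⟨rfl, .inl rfl⟩⟩

theorem loc_f1 {N : Prop} {x y : Pt} (h : IsStep (x - y)) : Loc N y x y (x + y + 1) :=
  ⟨h, by rw [sub_self]; exact step_zero, .inl ⟨fun _ => .inr rfl, rfl, fun _ h => absurd rfl h⟩⟩

theorem loc_f3 {N : Prop} {x y : Pt} (h : IsStep (x - y)) : Loc N y y y (x + y + 1) :=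
  ⟨by rw [sub_self]; exact step_zero, by rw [sub_self]; exact step_zero, .inr ⟨rfl, .inr ⟨rfl, by
    rw [cell_eq, show x + y + 1 - (y + y + 1) = x - y by abel]
    exact h⟩⟩⟩

theorem loc_p {N : Prop} {q a b : Pt} (ha : IsStep a) (hb : IsStep b) (h : ∀ k, a k = 0 ∨ b k = 0)
    (hN : a ≠ 0 → b ≠ 0 → N) {u w c : Pt} (hu : u = q + a) (hw : w = q + b) (hc : c = u + w + 1) :
    Loc N q u w c := by
  subst hu hw
  refine ⟨by rwa [add_sub_cancel_left], by rwa [add_sub_cancel_left], .inl ⟨fun k => ?_, hc,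
    fun h1 h2 => hN (fun h3 => h1 (by rw [h3, add_zero])) fun h3 => h2 (by rw [h3, add_zero])⟩⟩
  simpa using h k

theorem shape_loc {x y z w : Pt} (h : Shape x y z w) {c : Pt}
    (hc : c = if x = w then y + z + 1 else x + w + 1) {N : Prop}
    (hN : y ≠ x → z ≠ x → w - z = y - x → (∀ k, y k = x k ∨ z k = x k) → N) :
    Loc N x y z c ∧ Loc N y x w c ∧ Loc N z w x c ∧ Loc N w z y c := by
  rcases h with ⟨a, b, ha, hb, h, rfl, rfl, rfl⟩ | ⟨rfl, rfl, h⟩ | ⟨rfl, rfl, h⟩ | ⟨rfl, rfl, h⟩ |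
    ⟨rfl, rfl, h⟩
  · have h1 : c = x + a + (x + b) + 1 := by
      rw [hc]
      split_ifs
      · rfl
      · abel
    have h2 : a ≠ 0 → b ≠ 0 → N := fun h3 h4 =>
      hN (by simpa using h3) (by simpa using h4) (by abel) (by simpa using h)
    refine ⟨loc_p ha hb h h2 rfl rfl h1,
      loc_p (step_neg ha) hb (by simpa using h) (by simpa using h2) (by abel) rfl (by rw [h1]; abel),
      loc_p ha (step_neg hb) (by simpa using h) (by simpa using h2) (by abel) (by abel)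
        (by rw [h1]; abel),
      loc_p (step_neg ha) (step_neg hb) (by simpa using h) (by simpa using h2) (by abel) (by abel)
        (by rw [h1]; abel)⟩
  · have h1 : c = x + y + 1 := by
      rw [hc]
      split_ifs with h2
      · rw [h2]
      · rfl
    rw [h1]
    exact ⟨loc_f0 h, loc_f1 h, (loc_f1 h).symm, loc_f3 h⟩
  · have h1 : c = y + x + 1 := by rw [hc, if_pos rfl]
    rw [h1]
    exact ⟨loc_f1 h, loc_f0 h, loc_f3 h, (loc_f1 h).symm⟩
  · have h1 : c = z + x + 1 := by rw [hc, if_pos rfl, add_comm x]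
    rw [h1]
    exact ⟨(loc_f1 h).symm, loc_f3 h, loc_f0 h, loc_f1 h⟩
  · have h1 : c = w + x + 1 := by
      rw [hc]
      split_ifs with h2
      · rw [h2]
      · rw [add_comm x]
    rw [h1]
    exact ⟨loc_f3 h, (loc_f1 h).symm, loc_f1 h, loc_f0 h⟩

/-- the midpoint of the horizontal coarse edge -/
def hm (f : Gp) : Gp := (2 * (sqOf f).1 + 1, 2 * (crn f).2)
/-- the midpoint of the vertical coarse edge -/
def vm (f : Gp) : Gp := (2 * (crn f).1, 2 * (sqOf f).2 + 1)

theorem face_cases (f : Gp) : ∃ a b : ℤ, sqOf f = (a, b) ∧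
    ((f = (2 * a, 2 * b) ∧ crn f = (a, b)) ∨ (f = (2 * a + 1, 2 * b) ∧ crn f = (a + 1, b)) ∨
      (f = (2 * a, 2 * b + 1) ∧ crn f = (a, b + 1)) ∨
      (f = (2 * a + 1, 2 * b + 1) ∧ crn f = (a + 1, b + 1))) := by
  refine ⟨f.1 / 2, f.2 / 2, rfl, ?_⟩
  simp only [crn, Prod.ext_iff]
  omega

theorem loc {F : Gp → Pt} {f : Gp} (h : Sh F (sqOf f)) : ∃ u w, ref F (hm f) = F (crn f) + u + 1 ∧
    ref F (vm f) = F (crn f) + w + 1 ∧
    Loc (ND F (sqOf f)) (F (crn f)) u w (ref F (ctr (sqOf f))) := by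
  obtain ⟨a, b, h1, h2⟩ := face_cases f
  have h3 := shape_loc h (c := ref F (ctr (sqOf f))) (by
    rw [h1, ctr, ref_oo]
    simp) (N := ND F (sqOf f)) fun a b c d => ⟨a, b, c, d⟩
  rw [hm, vm]
  simp only [h1, Prod.mk_add_mk, add_zero] at h3 ⊢
  rcases h2 with ⟨-, h2⟩ | ⟨-, h2⟩ | ⟨-, h2⟩ | ⟨-, h2⟩ <;> simp only [h2, ref_oe, ref_eo]
  · exact ⟨_, _, rfl, rfl, h3.1⟩
  · exact ⟨_, _, by rw [add_comm (F _)], rfl, h3.2.1⟩
  · exact ⟨_, _, rfl, by rw [add_comm (F _)], h3.2.2.1⟩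
  · exact ⟨_, _, by rw [add_comm (F _)], by rw [add_comm (F _)], h3.2.2.2⟩

theorem corner_cases {f r : Gp} (h : Corner f r) :
    r = (2 * (crn f).1, 2 * (crn f).2) ∨ r = hm f ∨ r = vm f ∨ r = ctr (sqOf f) := by
  simp only [Corner, hm, vm, ctr, sqOf, crn, Prod.ext_iff] at h ⊢
  omega

theorem isFace_of {τ q : Pt} (h : ∀ j, -1 ≤ τ j - cell q j ∧ τ j - cell q j ≤ 1) :
    IsFace τ (cell q) := fun j => by
  have := h j
  by_cases h1 : τ j = cell q j
  · exact .inl h1
  · refine .inr ⟨⟨q j, rfl⟩, ?_⟩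
    rw [abs_eq zero_le_one]
    omega

theorem isFace_ref {F : Gp → Pt} {f r : Gp} (h : Sh F (sqOf f)) (hr : Corner f r) :
    IsFace (ref F r) (cell (F (crn f))) := by
  obtain ⟨u, w, h1, h2, h3, h4, h5⟩ := loc h
  refine isFace_of fun j => ?_
  have a := step_le h3 j
  have b := step_le h4 j
  simp only [Pi.sub_apply] at a b
  rcases corner_cases hr with rfl | rfl | rfl | rfl
  · simp [ref_ee]
  · simp only [h1, cell, Pi.add_apply, Pi.one_apply]
    omega
  · simp only [h2, cell, Pi.add_apply, Pi.one_apply]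
    omega
  · rcases h5 with ⟨c, d, -⟩ | ⟨-, d | ⟨-, d⟩⟩
    · have := c j
      simp only [d, cell, Pi.add_apply, Pi.one_apply]
      omega
    · simp only [d, cell, Pi.add_apply, Pi.one_apply]
      omega
    · exact step_le d j

theorem adj_ref {F : Gp → Pt} {f r r' : Gp} (h : Sh F (sqOf f)) (hr : Corner f r)
    (hr' : Corner f r') (ha : GAdj r r') : Adj (ref F r) (ref F r') := by
  obtain ⟨u, w, h1, h2, h3, h4, h5⟩ := loc h
  have sy : ∀ {p p' : Pt}, Adj p p' → Adj p' p := fun h => by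
    have := step_neg h
    rwa [neg_sub] at this
  have e0 : ref F (2 * (crn f).1, 2 * (crn f).2) = F (crn f) + F (crn f) + 1 := by
    rw [ref_ee, cell_eq]
  have a1 : Adj (ref F (2 * (crn f).1, 2 * (crn f).2)) (ref F (hm f)) := by
    rw [Adj, e0, h1, show ∀ x y : Pt, x + y + 1 - (x + x + 1) = y - x by intros; abel]
    exact h3
  have a2 : Adj (ref F (2 * (crn f).1, 2 * (crn f).2)) (ref F (vm f)) := by
    rw [Adj, e0, h2, show ∀ x y : Pt, x + y + 1 - (x + x + 1) = y - x by intros; abel]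
    exact h4
  have a3 : Adj (ref F (hm f)) (ref F (ctr (sqOf f))) ∧ Adj (ref F (vm f)) (ref F (ctr (sqOf f))) := by
    rw [Adj, Adj, h1, h2]
    rcases h5 with ⟨-, d, -⟩ | ⟨rfl, d | ⟨rfl, d⟩⟩
    · rw [d, show ∀ x : Pt, u + w + 1 - (x + u + 1) = w - x by intros; abel,
        show ∀ x : Pt, u + w + 1 - (x + w + 1) = u - x by intros; abel]
      exact ⟨h4, h3⟩
    · rw [d, sub_self]
      exact ⟨step_zero, step_zero⟩
    · rw [← cell_eq]
      exact ⟨d, d⟩
  rcases corner_cases hr with rfl | rfl | rfl | rfl <;>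
    rcases corner_cases hr' with rfl | rfl | rfl | rfl <;>
    first
    | exact a1 | exact a2 | exact a3.1 | exact a3.2 | exact sy a1 | exact sy a2 | exact sy a3.1
    | exact sy a3.2
    | (exfalso
       simp only [GAdj, hm, vm, ctr, sqOf, crn, Prod.ext_iff, Prod.fst_add, Prod.snd_add,
         Prod.fst_sub, Prod.snd_sub] at ha
       omega)

/-- coordinates on a nondegenerate square -/
structure Co (F : Gp → Pt) (Q : Gp) (k l : Fin 4) (s t : ℤ) : Prop where
  ne : k ≠ l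
  hs : s = 1 ∨ s = -1
  ht : t = 1 ∨ t = -1
  cor : ∀ w, Corner Q w → F w = F Q + ((w.1 - Q.1) * s) • ee k + ((w.2 - Q.2) * t) • ee l
  rf : ∀ r : Gp, 2 * Q.1 ≤ r.1 → r.1 ≤ 2 * Q.1 + 2 → 2 * Q.2 ≤ r.2 → r.2 ≤ 2 * Q.2 + 2 →
    ref F r = cell (F Q) + ((r.1 - 2 * Q.1) * s) • ee k + ((r.2 - 2 * Q.2) * t) • ee l

theorem exists_co {F : Gp → Pt} {Q : Gp} (h : Sh F Q) (hN : ND F Q) : ∃ k l s t, Co F Q k l s t := by
  obtain ⟨a, b⟩ := Q
  have h3 := (shape_loc h rfl (N := True) fun _ _ _ _ => trivial).1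
  obtain ⟨n1, n2, n3, n4⟩ := hN
  simp only [Prod.mk_add_mk, add_zero] at h3 n1 n2 n3 n4
  obtain ⟨k, s, hs, h1⟩ := step_ex h3.1 (sub_ne_zero.2 n1)
  obtain ⟨l, t, ht, h2⟩ := step_ex h3.2.1 (sub_ne_zero.2 n2)
  have hkl : k ≠ l := by
    rintro rfl
    have c1 := congrFun h1 k
    have c2 := congrFun h2 k
    have := n4 k
    simp only [ee, Pi.sub_apply, Pi.smul_apply, Pi.single_eq_same, smul_eq_mul] at c1 c2
    omega
  have e1 : F (a + 1, b) = F (a, b) + s • ee k := by rw [← h1, add_sub_cancel]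
  have e2 : F (a, b + 1) = F (a, b) + t • ee l := by rw [← h2, add_sub_cancel]
  have e3 : F (a + 1, b + 1) = F (a, b) + s • ee k + t • ee l := by
    rw [eq_add_of_sub_eq n3, h1, e2]
    abel
  refine ⟨k, l, s, t, hkl, hs, ht, ?_, ?_⟩
  · rintro ⟨x, y⟩ ⟨c1, c2⟩
    simp only at c1 c2
    rcases c1 with rfl | rfl <;> rcases c2 with rfl | rfl <;> simp [e1, e2, e3]
  · rintro ⟨x, y⟩ c1 c2 c3 c4
    have e4 : ref F (2 * a + 1, 2 * b + 1) = F (a, b) + F (a + 1, b + 1) + 1 := by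
      rw [ref_oo]
      split_ifs
      · rw [e1, e2, e3]
        abel
      · rfl
    obtain rfl | rfl | rfl : x = 2 * a ∨ x = 2 * a + 1 ∨ x = 2 * (a + 1) := by
      simp only at c1 c2
      omega
    all_goals
      obtain rfl | rfl | rfl : y = 2 * b ∨ y = 2 * b + 1 ∨ y = 2 * (b + 1) := by
        simp only at c3 c4
        omega
    all_goals
      simp only [e4, ref_ee, ref_oe, ref_eo, e1, e2, e3, cell_eq]
      module

theorem dirOf_eq {k : Fin 4} {s : ℤ} (hs : s = 1 ∨ s = -1) : dirOf (s • ee k) = k := by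
  have h : ∃ j, (s • ee k) j ≠ 0 := ⟨k, by
    simp only [ee, Pi.smul_apply, Pi.single_eq_same, smul_eq_mul]
    omega⟩
  rw [dirOf, dif_pos h]
  by_contra h1
  exact h.choose_spec (mul_eq_zero_of_right s (Pi.single_eq_of_ne h1 1))

/-! ### charts -/

theorem thC_inj (N : ℕ) (i : Kl) : Function.Injective (thC N i) := fun p q h => funext fun j => by
  have := congrFun h ((ppi i).symm j)
  simpa [thC] using this

theorem ref_thC (N : ℕ) (i : Kl) (F : Gp → Pt) (r : Gp) (j : Fin 4) :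
    ref (fun v => thC N i (F v)) r j =
      ref F r (ppi i j) + 2 * N * (org (i, false) j - org (i, true) (ppi i j)) := by
  simp only [ref, (thC_inj N i).eq_iff]
  split_ifs <;> simp only [thC, cell, Pi.add_apply, Pi.one_apply] <;> ring

theorem thC_iff {N : ℕ} {i : Kl} {q : Pt} : thC N i q ∈ Qc N (i, false) ↔ q ∈ Qc N (i, true) := by
  refine Iff.trans (forall_congr' fun j => ?_) ((ppi i).forall_congr_right (q := fun j =>
    N * org (i, true) j ≤ q j ∧ q j < N * (org (i, true) + 3) j))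
  simp only [thC, Pi.add_apply, Pi.ofNat_apply, mul_add, mul_sub]
  omega

/-- neighbours across a fibre face are outside of the chart -/
theorem fib_out {N : ℕ} (hN : 0 < N) {l : Lg} {q : Pt} (hq : q ∈ Uc N)
    (h1 : ∀ j, j ≠ kap l.1 → j ≠ 3 → N * org l j ≤ q j ∧ q j < N * (org l j + 3))
    (h2 : N * org l (kap l.1) - 1 ≤ q (kap l.1) ∧ q (kap l.1) ≤ N * (org l (kap l.1) + 3)) :
    q ∈ Qc N l := by
  have _ := hN
  refine Gx.fib_in hq (fun j a b => ?_) h2.1 ?_
  · have := h1 j a b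
    rw [mul_add] at this
    omega
  · have := h2.2
    rw [mul_add] at this
    omega

theorem ppi_fib : ∀ (i : Kl) (j m : Fin 4), j ≠ kap i → j ≠ 3 → ppi i m ≠ kap i → ppi i m ≠ 3 →
    m ≠ j := by
  intro i
  simp only [Gx.kap_eq, Gx.ppi_eq]
  decide

variable {F : Gp → Pt} {Q : Gp} {k l : Fin 4} {s t : ℤ}

theorem Co.at (h : Co F Q k l s t) {w : Gp} (hw : Corner Q w) (j : Fin 4) : F w j =
    F Q j + (if j = k then (w.1 - Q.1) * s else 0) + if j = l then (w.2 - Q.2) * t else 0 := by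
  simp [h.cor w hw, ee, Pi.single_apply]

theorem Co.rat (h : Co F Q k l s t) {r : Gp} (h1 : 2 * Q.1 ≤ r.1) (h2 : r.1 ≤ 2 * Q.1 + 2)
    (h3 : 2 * Q.2 ≤ r.2) (h4 : r.2 ≤ 2 * Q.2 + 2) (j : Fin 4) : ref F r j = 2 * F Q j + 1 +
      (if j = k then (r.1 - 2 * Q.1) * s else 0) + if j = l then (r.2 - 2 * Q.2) * t else 0 := by
  simp [h.rf r h1 h2 h3 h4, ee, Pi.single_apply, cell]

theorem Co.ctr (h : Co F Q k l s t) (j : Fin 4) : ref F (ctr Q) j = 2 * F Q j + 1 +
      (if j = k then s else 0) + if j = l then t else 0 := by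
  rw [h.rat] <;> simp [K.ctr]

theorem Co.near (h : Co F Q k l s t) {w w' : Gp} (hw : Corner Q w) (hw' : Corner Q w') (j : Fin 4) :
    -1 ≤ F w j - F w' j ∧ F w j - F w' j ≤ 1 := by
  have := h.ne
  rw [h.at hw, h.at hw']
  rcases h.hs with rfl | rfl <;> rcases h.ht with rfl | rfl <;> unfold Corner at hw hw' <;>
    split_ifs <;> omega

theorem Co.mix (h : Co F Q k l s t) {w w' : Gp} (hw : Corner Q w) (hw' : Corner Q w') (j : Fin 4) :
    ∃ v, Corner Q v ∧ F v j = F w j ∧ ∀ m, m ≠ j → F v m = F w' m := by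
  have := h.ne
  have c : Corner Q (if j = k then w.1 else w'.1, if j = l then w.2 else w'.2) := by
    unfold Corner at hw hw' ⊢
    split_ifs <;> tauto
  refine ⟨_, c, ?_, fun m hm => ?_⟩
  · rw [h.at c, h.at hw]
    split_ifs <;> rfl
  · rw [h.at c, h.at hw']
    split_ifs <;> first | rfl | omega

theorem Co.inj (h : Co F Q k l s t) {w w' : Gp} (hw : Corner Q w) (hw' : Corner Q w')
    (e : F w = F w') : w = w' := by
  have := h.ne
  have h1 := congrFun e k
  have h2 := congrFun e l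
  rw [h.at hw, h.at hw'] at h1 h2
  simp only [if_true, this, this.symm, if_false] at h1 h2
  refine Prod.ext ?_ ?_ <;> rcases h.hs with rfl | rfl <;> rcases h.ht with rfl | rfl <;> omega

/-- the cubes around the centre are the corners -/
theorem Co.star (h : Co F Q k l s t) {τ : Pt}
    (h1 : ∀ j, j ≠ k → j ≠ l → τ j = ref F (K.ctr Q) j) (h2 : |τ k - ref F (K.ctr Q) k| ≤ 1)
    (h3 : |τ l - ref F (K.ctr Q) l| ≤ 1) {q : Pt} (hq : ∀ j, |τ j - cell q j| ≤ 1) :
    ∃ w r : Gp, Corner Q w ∧ F w = q ∧ Corner (Q + w) r ∧ ref F r = τ := by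
  have hn := h.ne
  have qk := hq k
  have ql := hq l
  simp only [h.ctr, if_true, hn, hn.symm, if_false, cell, abs_le] at h1 h2 h3 qk ql
  have c : Corner Q (Q.1 + (q k - F Q k) * s, Q.2 + (q l - F Q l) * t) := by
    unfold Corner
    rcases h.hs with rfl | rfl <;> rcases h.ht with rfl | rfl <;> omega
  refine ⟨_, (2 * Q.1 + (τ k - 2 * F Q k - 1) * s, 2 * Q.2 + (τ l - 2 * F Q l - 1) * t), c,
    funext fun j => ?_, ?_, funext fun j => ?_⟩
  · have a := hq j
    have b := h1 j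
    rw [h.at c]
    simp only [cell, abs_le] at a
    rcases h.hs with rfl | rfl <;> rcases h.ht with rfl | rfl <;> split_ifs at b ⊢ <;>
      first | omega | (subst_vars; omega)
  · simp only [Corner, Prod.fst_add, Prod.snd_add]
    rcases h.hs with rfl | rfl <;> rcases h.ht with rfl | rfl <;> omega
  · have b := h1 j
    rw [h.rat]
    all_goals
      rcases h.hs with rfl | rfl <;> rcases h.ht with rfl | rfl <;> (try split_ifs at b ⊢) <;>
        first | omega | (subst_vars; omega)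

/-- in the weak chart the corners with the other label are outside -/
theorem Co.weak {N : ℕ} (hN : 0 < N) {i : Kl} (h : Co (fun v => thC N i (F v)) Q k l s t)
    (hU : ∀ w, Corner Q w → F w ∈ Uc N) {w w' : Gp} (hw : Corner Q w) (hw' : Corner Q w')
    (h1 : F w' ∈ Qc N (i, true)) (h2 : thC N i (F w) ∈ Uc N) : F w ∈ Qc N (i, true) := by
  have h3 := thC_iff.2 h1
  refine thC_iff.1 (fib_out hN h2 (fun j a b => ?_) ?_)
  · obtain ⟨v, v1, v2, v3⟩ := h.mix hw hw' j
    have h4 : ∀ m, ppi i m ≠ kap i → ppi i m ≠ 3 → F v (ppi i m) = F w' (ppi i m) := fun m c d =>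
      add_right_cancel (v3 m (ppi_fib i j m a b c d))
    have h5 : F v ∈ Qc N (i, true) := by
      refine fib_out hN (hU v v1) (fun m c d => ?_) ?_
      · obtain ⟨m, rfl⟩ := (ppi i).surjective m
        rw [h4 m c d]
        exact h1 _
      · obtain ⟨m, hm⟩ := (ppi i).surjective (kap i)
        have h6 := h.near v1 hw' m
        have h7 := h1 (kap i)
        simp only [thC, hm, Pi.add_apply, Pi.ofNat_apply] at h6 h7 ⊢
        omega
    have h6 := thC_iff.2 h5 j
    rw [v2] at h6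
    exact h6
  · have h6 := h.near hw hw' (kap i)
    have h7 := h3 (kap i)
    simp only [Pi.add_apply, Pi.ofNat_apply] at h6 h7 ⊢
    omega

theorem sq_add {w : Gp} (hw : Corner Q w) : sqOf (Q + w) = Q ∧ crn (Q + w) = w := by
  simp only [Corner, sqOf, crn, Prod.ext_iff, Prod.fst_add, Prod.snd_add] at hw ⊢
  omega

theorem corner_crn (f : Gp) : Corner (sqOf f) (crn f) ∧ sqOf f + crn f = f := by
  simp only [Corner, sqOf, crn, Prod.ext_iff, Prod.fst_add, Prod.snd_add]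
  omega

end Vale.Agent.P215Z.K.Geo
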